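import Mathlib

/-!
Iterated minimum fragments, with the fractional cover carried along. Used for the
bound on integral covers when all sets carrying fractional weight are large.
-/

namespace Vale.Agent.P034

open Finset

variable {X : Type} [Fintype X] [DecidableEq X]

/-- The product weight of a set `W` at density `a`. -/
noncomputable def bern (a : ℝ) (W : Finset X) : ℝ := a ^ W.card * (1 - a) ^ (univ \ W).card

lemma bern_nonneg {a : ℝ} (h0 : 0 ≤ a) (h1 : a ≤ 1) (W : Finset X) : 0 ≤ bern a W :=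
  mul_nonneg (pow_nonneg h0 _) (pow_nonneg (by linarith) _)

lemma bern_mul_pow_sum (a b : ℝ) (S : Finset X) :
    ∑ W : Finset X, bern a W * b ^ (S \ W).card = (a + (1 - a) * b) ^ S.card := by
  have h := Finset.prod_add (fun _ : X => a) (fun x => (1 - a) * (if x ∈ S then b else 1))
    (univ : Finset X)
  have hl : ∀ x : X, a + (1 - a) * (if x ∈ S then b else 1)
      = if x ∈ S then a + (1 - a) * b else 1 := by
    intro x; split_ifs <;> ring
  rw [prod_congr rfl (fun x _ => hl x), prod_ite_mem, univ_inter, prod_const,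
    powerset_univ] at h
  rw [h]
  refine sum_congr rfl fun W _ => ?_
  have hset : (univ \ W) ∩ S = S \ W := by
    ext x; simp [and_comm]
  rw [prod_mul_distrib, prod_const, prod_const, prod_ite_mem, hset, prod_const, bern]
  ring

lemma bern_sum (a : ℝ) : ∑ W : Finset X, bern a W = 1 := by
  simpa using bern_mul_pow_sum a 1 (∅ : Finset X)

lemma exists_le_average {a : ℝ} (h0 : 0 ≤ a) (h1 : a ≤ 1) (f : Finset X → ℝ) (B : ℝ)
    (h : ∑ W : Finset X, bern a W * f W ≤ B) : ∃ W : Finset X, f W ≤ B := by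
  by_contra hc
  push Not at hc
  obtain ⟨W₀, hW₀⟩ : ∃ W : Finset X, 0 < bern a W := by
    by_contra hn
    push Not at hn
    have := sum_nonpos (s := (univ : Finset (Finset X))) (fun W _ => hn W)
    rw [bern_sum] at this
    linarith
  have : ∑ W : Finset X, bern a W * B < ∑ W : Finset X, bern a W * f W :=
    sum_lt_sum (fun W _ => mul_le_mul_of_nonneg_left (hc W).le (bern_nonneg h0 h1 W))
      ⟨W₀, mem_univ _, mul_lt_mul_of_pos_left (hc W₀) hW₀⟩
  rw [← sum_mul, bern_sum, one_mul] at this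
  linarith

omit [Fintype X] in
lemma exists_min_frag (𝓗 : Finset (Finset X)) (W U : Finset X) :
    ∃ U' : Finset X, U ∈ 𝓗 → U' ∈ 𝓗 ∧ U' ⊆ W ∪ U ∧
      ∀ V ∈ 𝓗, V ⊆ W ∪ U → (U' \ W).card ≤ (V \ W).card := by
  by_cases hU : U ∈ 𝓗
  · have hne : (𝓗.filter (fun V => V ⊆ W ∪ U)).Nonempty :=
      ⟨U, mem_filter.2 ⟨hU, subset_union_right⟩⟩
    obtain ⟨U', hU', hmin⟩ := exists_min_image _ (fun V => (V \ W).card) hne
    rw [mem_filter] at hU'
    exact ⟨U', fun _ => ⟨hU'.1, hU'.2, fun V hV hVs => hmin V (mem_filter.2 ⟨hV, hVs⟩)⟩⟩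
  · exact ⟨∅, fun h => absurd h hU⟩

/-- A member inside `W ∪ U` with the fewest elements outside `W`. -/
noncomputable def best (𝓗 : Finset (Finset X)) (W U : Finset X) : Finset X :=
  (exists_min_frag 𝓗 W U).choose

/-- The minimum fragment. -/
noncomputable def frag (𝓗 : Finset (Finset X)) (W U : Finset X) : Finset X :=
  best 𝓗 W U \ W

omit [Fintype X] in
lemma frag_subset {𝓗 : Finset (Finset X)} {W U : Finset X} (hU : U ∈ 𝓗) :
    frag 𝓗 W U ⊆ U := by
  obtain ⟨_, h2, _⟩ := (exists_min_frag 𝓗 W U).choose_spec hU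
  intro x hx
  rw [frag, mem_sdiff] at hx
  rcases mem_union.1 (h2 hx.1) with h | h
  · exact absurd h hx.2
  · exact h

open scoped Classical in
/-- Candidates for a fragment, given only the union of the random set and the fragment. -/
noncomputable def cand (𝓗 : Finset (Finset X)) (k : ℕ) (Z : Finset X) : Finset (Finset X) :=
  if h : ∃ V ∈ 𝓗, V ⊆ Z then h.choose.powerset.filter (fun T => k < T.card) else ∅

omit [Fintype X] in
lemma frag_mem_cand {𝓗 : Finset (Finset X)} {k : ℕ} {W U : Finset X} (hU : U ∈ 𝓗)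
    (hk : k < (frag 𝓗 W U).card) : frag 𝓗 W U ∈ cand 𝓗 k (W ∪ frag 𝓗 W U) := by
  obtain ⟨h1, -, h3⟩ := (exists_min_frag 𝓗 W U).choose_spec hU
  have hex : ∃ V ∈ 𝓗, V ⊆ W ∪ frag 𝓗 W U :=
    ⟨best 𝓗 W U, h1, by rw [frag, union_sdiff_self_eq_union]; exact subset_union_right⟩
  rw [cand, dif_pos hex, mem_filter, mem_powerset]
  refine ⟨?_, hk⟩
  obtain ⟨hV, hVs⟩ := hex.choose_spec
  set V := hex.choose
  have hVU : V ⊆ W ∪ U := hVs.trans (union_subset_union_right (frag_subset hU))
  have hsub : V \ W ⊆ frag 𝓗 W U := by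
    intro x hx
    rw [mem_sdiff] at hx
    rcases mem_union.1 (hVs hx.1) with h | h
    · exact absurd h hx.2
    · exact h
  have heq : V \ W = frag 𝓗 W U := eq_of_subset_of_card_le hsub (h3 V hV hVU)
  rw [← heq]
  exact sdiff_subset

omit [Fintype X] in
lemma cand_sum_le {𝓗 : Finset (Finset X)} {k : ℕ} (hsize : ∀ U ∈ 𝓗, U.card ≤ 2 * k)
    (Z : Finset X) : ∑ T ∈ cand 𝓗 k Z, ((1 : ℝ) / 64) ^ T.card ≤ (1 / 16) ^ k := by
  unfold cand
  split_ifs with h
  · obtain ⟨hV, -⟩ := h.choose_spec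
    set V := h.choose
    calc ∑ T ∈ V.powerset.filter (fun T => k < T.card), ((1 : ℝ) / 64) ^ T.card
        ≤ ∑ _T ∈ V.powerset.filter (fun T => k < T.card), ((1 : ℝ) / 64) ^ k :=
          sum_le_sum fun T hT =>
            pow_le_pow_of_le_one (by norm_num) (by norm_num) (mem_filter.1 hT).2.le
      _ = ((V.powerset.filter (fun T => k < T.card)).card : ℝ) * (1 / 64) ^ k := by
          rw [sum_const, nsmul_eq_mul]
      _ ≤ (2 : ℝ) ^ (2 * k) * (1 / 64) ^ k := by
          refine mul_le_mul_of_nonneg_right ?_ (by positivity)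
          calc ((V.powerset.filter (fun T => k < T.card)).card : ℝ)
              ≤ (V.powerset.card : ℝ) := by exact_mod_cast card_filter_le _ _
            _ = (2 : ℝ) ^ V.card := by rw [card_powerset]; norm_num
            _ ≤ (2 : ℝ) ^ (2 * k) := pow_le_pow_right₀ (by norm_num) (hsize V hV)
      _ = (1 / 16) ^ k := by
          rw [pow_mul, ← mul_pow]; norm_num
  · simp

open scoped Classical in
/-- The large fragments at a fixed random set cost little on average. -/
lemma round_cost {𝓗 : Finset (Finset X)} {k : ℕ} (hsize : ∀ U ∈ 𝓗, U.card ≤ 2 * k)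
    {q : ℝ} (hq : 0 ≤ q) (hq1 : 64 * q ≤ 1) :
    ∑ W : Finset X, bern (64 * q) W *
      ∑ T ∈ (𝓗.image (frag 𝓗 W)).filter (fun T => k < T.card), q ^ T.card ≤ (1 / 16) ^ k := by
  set a := 64 * q with ha
  have ha0 : 0 ≤ a := by positivity
  have hstep : ∀ W T : Finset X, Disjoint W T →
      bern a W * q ^ T.card ≤ bern a (W ∪ T) * ((1 : ℝ) / 64) ^ T.card := by
    intro W T hWT
    have hc : (univ \ W).card = (univ \ (W ∪ T)).card + T.card := by
      have h2 : univ \ W = (univ \ (W ∪ T)) ∪ T := by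
        ext x
        simp only [mem_sdiff, mem_univ, true_and, mem_union]
        constructor
        · intro hx; by_cases hT : x ∈ T
          · exact Or.inr hT
          · exact Or.inl (by tauto)
        · rintro (hx | hx)
          · tauto
          · exact Finset.disjoint_right.1 hWT hx
      rw [h2, card_union_of_disjoint]
      exact Finset.disjoint_left.2 fun x hx => fun hT => by
        simp [mem_sdiff, hT] at hx
    rw [bern, bern, hc, card_union_of_disjoint hWT, pow_add, pow_add]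
    have h64 : a ^ T.card * ((1 : ℝ) / 64) ^ T.card = q ^ T.card := by
      rw [← mul_pow, ha]; ring_nf
    have hle : (1 - a) ^ T.card ≤ 1 := pow_le_one₀ (by linarith) (by linarith)
    have hnn : 0 ≤ a ^ W.card * (1 - a) ^ (univ \ (W ∪ T)).card * q ^ T.card :=
      mul_nonneg (mul_nonneg (pow_nonneg ha0 _) (pow_nonneg (by linarith) _)) (pow_nonneg hq _)
    calc a ^ W.card * ((1 - a) ^ (univ \ (W ∪ T)).card * (1 - a) ^ T.card) * q ^ T.card
        = (a ^ W.card * (1 - a) ^ (univ \ (W ∪ T)).card * q ^ T.card) * (1 - a) ^ T.card := by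
          ring
      _ ≤ a ^ W.card * (1 - a) ^ (univ \ (W ∪ T)).card * q ^ T.card :=
          mul_le_of_le_one_right hnn hle
      _ = a ^ W.card * a ^ T.card * (1 - a) ^ (univ \ (W ∪ T)).card
            * ((1 : ℝ) / 64) ^ T.card := by rw [← h64]; ring
  let s : Finset (Finset X × Finset X) := (univ ×ˢ univ).filter
    (fun z => z.2 ∈ (𝓗.image (frag 𝓗 z.1)).filter (fun T => k < T.card))
  let u : Finset (Finset X × Finset X) := (univ ×ˢ univ).filter
    (fun z => z.2 ∈ cand 𝓗 k z.1)
  have hdisj : ∀ z ∈ s, Disjoint z.1 z.2 := by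
    intro z hz
    obtain ⟨U, -, hU⟩ := mem_image.1 (mem_filter.1 (mem_filter.1 hz).2).1
    rw [← hU, frag]
    exact disjoint_sdiff
  have hinj : Set.InjOn (fun z : Finset X × Finset X => (z.1 ∪ z.2, z.2)) (↑s) := by
    intro z hz z' hz' he
    simp only [Prod.mk.injEq] at he
    have h1 := hdisj z hz
    have h2 := hdisj z' hz'
    refine Prod.ext ?_ he.2
    rw [← union_sdiff_cancel_right h1, ← union_sdiff_cancel_right h2, he.1, he.2]
  have hsub : s.image (fun z => (z.1 ∪ z.2, z.2)) ⊆ u := by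
    intro z hz
    obtain ⟨⟨W, T⟩, hWT, rfl⟩ := mem_image.1 hz
    have h := mem_filter.1 (mem_filter.1 hWT).2
    obtain ⟨U, hU, hT⟩ := mem_image.1 h.1
    refine mem_filter.2 ⟨mem_product.2 ⟨mem_univ _, mem_univ _⟩, ?_⟩
    have hk := h.2
    simp only at hT hk ⊢
    subst hT
    exact frag_mem_cand hU hk
  calc ∑ W : Finset X, bern a W *
        ∑ T ∈ (𝓗.image (frag 𝓗 W)).filter (fun T => k < T.card), q ^ T.card
      = ∑ z ∈ s, bern a z.1 * q ^ z.2.card := by
        simp only [mul_sum]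
        symm
        rw [sum_filter, sum_product]
        refine sum_congr rfl fun W _ => ?_
        dsimp only
        rw [sum_ite_mem, univ_inter]
    _ ≤ ∑ z ∈ s, bern a (z.1 ∪ z.2) * ((1 : ℝ) / 64) ^ z.2.card :=
        sum_le_sum fun z hz => hstep z.1 z.2 (hdisj z hz)
    _ = ∑ z ∈ s.image (fun z => (z.1 ∪ z.2, z.2)), bern a z.1 * ((1 : ℝ) / 64) ^ z.2.card :=
        (sum_image (f := fun z : Finset X × Finset X =>
          bern a z.1 * ((1 : ℝ) / 64) ^ z.2.card) hinj).symm
    _ ≤ ∑ z ∈ u, bern a z.1 * ((1 : ℝ) / 64) ^ z.2.card :=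
        sum_le_sum_of_subset_of_nonneg hsub fun z _ _ =>
          mul_nonneg (bern_nonneg ha0 hq1 _) (by positivity)
    _ = ∑ Z : Finset X, bern a Z * ∑ T ∈ cand 𝓗 k Z, ((1 : ℝ) / 64) ^ T.card := by
        simp only [mul_sum]
        rw [sum_filter, sum_product]
        refine sum_congr rfl fun W _ => ?_
        dsimp only
        rw [sum_ite_mem, univ_inter]
    _ ≤ ∑ Z : Finset X, bern a Z * (1 / 16) ^ k :=
        sum_le_sum fun Z _ =>
          mul_le_mul_of_nonneg_left (cand_sum_le hsize Z) (bern_nonneg ha0 hq1 Z)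
    _ = (1 / 16) ^ k := by rw [← sum_mul, bern_sum, one_mul]

open scoped Classical in
/-- The main induction: `R` rounds of minimum fragments. -/
lemma cover_exists (q : ℝ) (hq : 0 ≤ q) (hq1 : 64 * q ≤ 1) (t : ℕ) :
    ∀ (R : ℕ) (𝓗 : Finset (Finset X)) (g : Finset X → ℝ), (∀ S, 0 ≤ g S) →
      (∀ U ∈ 𝓗, U.card ≤ 2 ^ R * t) → (∀ U ∈ 𝓗, 1 ≤ ∑ S ∈ U.powerset, g S) →
      ∃ G : Finset (Finset X), (∀ U ∈ 𝓗, ∃ S ∈ G, S ⊆ U) ∧
        ∑ S ∈ G, q ^ S.card ≤ (∑ i ∈ range R, ((1 : ℝ) / 16) ^ (2 ^ i * t))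
          + 2 ^ t * ∑ S : Finset X, g S * (q + R * (64 * q)) ^ S.card := by
  intro R
  induction R with
  | zero =>
    intro 𝓗 g hg hsize hcov
    refine ⟨univ.filter (fun S => 1 ≤ 2 ^ t * g S), ?_, ?_⟩
    · intro U hU
      by_contra hc
      push Not at hc
      have hlt : ∀ S ∈ U.powerset, 2 ^ t * g S < 1 := by
        intro S hS
        by_contra h
        push Not at h
        exact hc S (mem_filter.2 ⟨mem_univ _, h⟩) (mem_powerset.1 hS)
      have h1 : ∑ S ∈ U.powerset, 2 ^ t * g S < ∑ _S ∈ U.powerset, (1 : ℝ) :=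
        sum_lt_sum_of_nonempty ⟨∅, empty_mem_powerset _⟩ hlt
      rw [← mul_sum, sum_const, nsmul_eq_mul, mul_one, card_powerset] at h1
      have h2 : ((2 ^ U.card : ℕ) : ℝ) ≤ 2 ^ t := by
        push_cast
        exact pow_le_pow_right₀ (by norm_num) (by simpa using hsize U hU)
      have h3 : (2 : ℝ) ^ t ≤ 2 ^ t * ∑ S ∈ U.powerset, g S :=
        le_mul_of_one_le_right (by positivity) (hcov U hU)
      linarith
    · simp only [range_zero, sum_empty, zero_add, Nat.cast_zero, zero_mul, add_zero, mul_sum]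
      calc ∑ S ∈ univ.filter (fun S => 1 ≤ 2 ^ t * g S), q ^ S.card
          ≤ ∑ S ∈ univ.filter (fun S => 1 ≤ 2 ^ t * g S), 2 ^ t * (g S * q ^ S.card) := by
            refine sum_le_sum fun S hS => ?_
            rw [← mul_assoc]
            exact le_mul_of_one_le_left (pow_nonneg hq _) (mem_filter.1 hS).2
        _ ≤ ∑ S : Finset X, 2 ^ t * (g S * q ^ S.card) :=
            sum_le_sum_of_subset_of_nonneg (filter_subset _ _) fun S _ _ =>
              mul_nonneg (by positivity) (mul_nonneg (hg S) (pow_nonneg hq _))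
  | succ R ih =>
    intro 𝓗 g hg hsize hcov
    have hsize' : ∀ U ∈ 𝓗, U.card ≤ 2 * (2 ^ R * t) := by
      intro U hU
      have := hsize U hU
      rw [pow_succ] at this
      linarith
    set k := 2 ^ R * t with hk
    set a := 64 * q with ha
    set c := q + (R : ℝ) * a with hcdef
    have ha0 : 0 ≤ a := by positivity
    have hc0 : 0 ≤ c := by positivity
    let bad : Finset X → ℝ := fun W =>
      ∑ T ∈ (𝓗.image (frag 𝓗 W)).filter (fun T => k < T.card), q ^ T.card
    let rest : Finset X → ℝ := fun W => ∑ S : Finset X, g S * c ^ (S \ W).card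
    have hrest : ∑ W : Finset X, bern a W * rest W ≤
        ∑ S : Finset X, g S * (q + ((R + 1 : ℕ) : ℝ) * a) ^ S.card := by
      simp only [rest, mul_sum]
      rw [sum_comm]
      refine sum_le_sum fun S _ => ?_
      simp only [mul_left_comm (bern a _) (g S)]
      rw [← mul_sum, bern_mul_pow_sum]
      refine mul_le_mul_of_nonneg_left (pow_le_pow_left₀ ?_ ?_ _) (hg S)
      · have : 0 ≤ (1 - a) * c := mul_nonneg (by linarith) hc0
        linarith
      · push_cast
        nlinarith [mul_nonneg ha0 hc0]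
    have havg : ∑ W : Finset X, bern a W * (bad W + 2 ^ t * rest W) ≤
        (1 / 16 : ℝ) ^ k + 2 ^ t * ∑ S : Finset X, g S * (q + ((R + 1 : ℕ) : ℝ) * a) ^ S.card := by
      simp only [mul_add, sum_add_distrib, mul_left_comm (bern a _) ((2 : ℝ) ^ t)]
      rw [← mul_sum]
      exact add_le_add (round_cost hsize' hq hq1)
        (mul_le_mul_of_nonneg_left hrest (by positivity))
    obtain ⟨W, hW⟩ := exists_le_average ha0 hq1 _ _ havg
    set 𝓗' := (𝓗.image (frag 𝓗 W)).filter (fun T => T.card ≤ k) with h𝓗'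
    let g' : Finset X → ℝ := fun O => ∑ S ∈ univ.filter (fun S => S \ W = O), g S
    have hg' : ∀ O, 0 ≤ g' O := fun O => sum_nonneg fun S _ => hg S
    have hsz : ∀ U ∈ 𝓗', U.card ≤ 2 ^ R * t := fun U hU => (mem_filter.1 hU).2
    have hcov' : ∀ T ∈ 𝓗', 1 ≤ ∑ O ∈ T.powerset, g' O := by
      intro T hT
      obtain ⟨U, hU, rfl⟩ := mem_image.1 (mem_filter.1 hT).1
      obtain ⟨hb, -, -⟩ := (exists_min_frag 𝓗 W U).choose_spec hU
      simp only [g']
      rw [sum_fiberwise_eq_sum_filter]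
      refine (hcov _ hb).trans (sum_le_sum_of_subset_of_nonneg ?_ fun S _ _ => hg S)
      intro S hS
      refine mem_filter.2 ⟨mem_univ _, mem_powerset.2 ?_⟩
      exact sdiff_subset_sdiff (mem_powerset.1 hS) (Subset.refl W)
    obtain ⟨G', hG', hcost'⟩ := ih 𝓗' g' hg' hsz hcov'
    refine ⟨(𝓗.image (frag 𝓗 W)).filter (fun T => k < T.card) ∪ G', ?_, ?_⟩
    · intro U hU
      by_cases hbig : k < (frag 𝓗 W U).card
      · exact ⟨frag 𝓗 W U, mem_union_left _ (mem_filter.2 ⟨mem_image_of_mem _ hU, hbig⟩),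
          frag_subset hU⟩
      · obtain ⟨S, hS, hSs⟩ := hG' (frag 𝓗 W U)
          (mem_filter.2 ⟨mem_image_of_mem _ hU, not_lt.1 hbig⟩)
        exact ⟨S, mem_union_right _ hS, hSs.trans (frag_subset hU)⟩
    · have hfib : ∑ O : Finset X, g' O * c ^ O.card = rest W := by
        simp only [g', rest, sum_mul]
        rw [← sum_fiberwise (univ : Finset (Finset X)) (fun S => S \ W)
          (fun S => g S * c ^ (S \ W).card)]
        refine sum_congr rfl fun O _ => sum_congr rfl fun S hS => ?_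
        rw [(mem_filter.1 hS).2]
      rw [hfib] at hcost'
      have hu := sum_union_inter (s₁ := (𝓗.image (frag 𝓗 W)).filter (fun T => k < T.card))
        (s₂ := G') (f := fun S : Finset X => q ^ S.card)
      have hi : 0 ≤ ∑ S ∈ (𝓗.image (frag 𝓗 W)).filter (fun T => k < T.card) ∩ G', q ^ S.card :=
        sum_nonneg fun S _ => pow_nonneg hq _
      rw [sum_range_succ]
      simp only [bad] at hW
      linarith

end Vale.Agent.P034
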